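import Vale.Agent.P290Z.Orb.Spec

/-!
# P290Z, part III, block (N): the K3 lattice in Kummer coordinates

`G0` is the Gram matrix of the lattice of the pairs `(E, n)`, `E ∈ ℤ⁶`, `n : 𝔽₂⁴ → ℤ`, such that
`n` modulo two is a quadratic function with the polar form `E` modulo two; the form is
`(U³(E, E') - ∑ n n') / 2`. The row `k` of `B` holds the coordinates `(E, n)` of the basis vector
`k`; the rows of `A` are the vectors `u i`, `w i` (a copy of `U(2)³`) and the sixteen roots `e a`.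
-/

set_option linter.dupNamespace false

open Matrix Finset

namespace Vale.Agent.P290Z.N

open Vale.Agent.P290.H726 Vale.Agent.P290Z.Orb

def Gl : List (List ℤ) :=
  [[-2, -1, -1, 0, -1, -1, -2, -2, -2, -1, -1, -1, 0, 0, -1, 0, 0, -1, 0, 0, 0, -1],
   [-1, -2, -1, -1, 0, -1, -2, -2, -1, -2, -1, 0, -1, 0, -1, 0, 0, 0, 0, -1, 0, -1],
   [-1, -1, -2, -1, -1, 0, -2, -2, -1, -1, -2, 0, 0, 0, 0, -1, 0, -1, 0, -1, 0, -1],
   [0, -1, -1, -2, -1, -1, -2, -1, -1, -2, -2, 0, 0, 0, 0, 0, 0, 0, -1, -1, -1, -1],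
   [-1, 0, -1, -1, -2, -1, -2, -1, -2, -1, -2, 0, 0, 0, 0, 0, -1, -1, 0, 0, -1, -1],
   [-1, -1, 0, -1, -1, -2, -2, -1, -2, -2, -1, 0, 0, -1, -1, 0, 0, 0, 0, 0, -1, -1],
   [-2, -2, -2, -2, -2, -2, -8, -4, -4, -4, -4, -1, -1, -1, -1, -1, -1, -1, -1, -1, -1, -1],
   [-2, -2, -2, -1, -1, -1, -4, -4, -2, -2, -2, -1, -1, 0, -1, -1, 0, -1, 0, -1, 0, -1],
   [-2, -1, -1, -1, -2, -2, -4, -2, -4, -2, -2, -1, 0, -1, -1, 0, -1, -1, 0, 0, -1, -1],
   [-1, -2, -1, -2, -1, -2, -4, -2, -2, -4, -2, 0, -1, -1, -1, 0, 0, 0, -1, -1, -1, -1],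
   [-1, -1, -2, -2, -2, -1, -4, -2, -2, -2, -4, 0, 0, 0, 0, -1, -1, -1, -1, -1, -1, -1],
   [-1, 0, 0, 0, 0, 0, -1, -1, -1, 0, 0, -2, 0, 0, 0, 0, 0, 0, 0, 0, 0, 0],
   [0, -1, 0, 0, 0, 0, -1, -1, 0, -1, 0, 0, -2, 0, 0, 0, 0, 0, 0, 0, 0, 0],
   [0, 0, 0, 0, 0, -1, -1, 0, -1, -1, 0, 0, 0, -2, 0, 0, 0, 0, 0, 0, 0, 0],
   [-1, -1, 0, 0, 0, -1, -1, -1, -1, -1, 0, 0, 0, 0, -2, 0, 0, 0, 0, 0, 0, 0],
   [0, 0, -1, 0, 0, 0, -1, -1, 0, 0, -1, 0, 0, 0, 0, -2, 0, 0, 0, 0, 0, 0],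
   [0, 0, 0, 0, -1, 0, -1, 0, -1, 0, -1, 0, 0, 0, 0, 0, -2, 0, 0, 0, 0, 0],
   [-1, 0, -1, 0, -1, 0, -1, -1, -1, 0, -1, 0, 0, 0, 0, 0, 0, -2, 0, 0, 0, 0],
   [0, 0, 0, -1, 0, 0, -1, 0, 0, -1, -1, 0, 0, 0, 0, 0, 0, 0, -2, 0, 0, 0],
   [0, -1, -1, -1, 0, 0, -1, -1, 0, -1, -1, 0, 0, 0, 0, 0, 0, 0, 0, -2, 0, 0],
   [0, 0, 0, -1, -1, -1, -1, 0, -1, -1, -1, 0, 0, 0, 0, 0, 0, 0, 0, 0, -2, 0],
   [-1, -1, -1, -1, -1, -1, -1, -1, -1, -1, -1, 0, 0, 0, 0, 0, 0, 0, 0, 0, 0, -2]]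

def Hl : List (List ℤ) :=
  [[0, 0, 0, 2, 0, 0, 0, 0, 0, 0, 0, 0, 0, 0, 0, 0, 0, 0, -1, -1, -1, -1],
   [0, 0, 0, 0, 2, 0, 0, 0, 0, 0, 0, 0, 0, 0, 0, 0, -1, -1, 0, 0, -1, -1],
   [0, 0, 0, 0, 0, 2, 0, 0, 0, 0, 0, 0, 0, -1, -1, 0, 0, 0, 0, 0, -1, -1],
   [2, 0, 0, 0, 0, 0, 0, 0, 0, 0, 0, -1, 0, 0, -1, 0, 0, -1, 0, 0, 0, -1],
   [0, 2, 0, 0, 0, 0, 0, 0, 0, 0, 0, 0, -1, 0, -1, 0, 0, 0, 0, -1, 0, -1],
   [0, 0, 2, 0, 0, 0, 0, 0, 0, 0, 0, 0, 0, 0, 0, -1, 0, -1, 0, -1, 0, -1],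
   [0, 0, 0, 0, 0, 0, -2, 2, 2, 2, 2, -1, -1, -1, -2, -1, -1, -2, -1, -2, -2, -3],
   [0, 0, 0, 0, 0, 0, 2, -4, -2, -2, -2, 2, 2, 1, 3, 2, 1, 3, 1, 3, 2, 4],
   [0, 0, 0, 0, 0, 0, 2, -2, -4, -2, -2, 2, 1, 2, 3, 1, 2, 3, 1, 2, 3, 4],
   [0, 0, 0, 0, 0, 0, 2, -2, -2, -4, -2, 1, 2, 2, 3, 1, 1, 2, 2, 3, 3, 4],
   [0, 0, 0, 0, 0, 0, 2, -2, -2, -2, -4, 1, 1, 1, 2, 2, 2, 3, 2, 3, 3, 4],
   [0, 0, 0, -1, 0, 0, -1, 2, 2, 1, 1, -2, -1, -1, -2, -1, -1, -2, 0, -1, -1, -2],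
   [0, 0, 0, 0, -1, 0, -1, 2, 1, 2, 1, -1, -2, -1, -2, -1, 0, -1, -1, -2, -1, -2],
   [0, 0, -1, 0, 0, 0, -1, 1, 2, 2, 1, -1, -1, -2, -2, 0, -1, -1, -1, -1, -2, -2],
   [0, 0, -1, -1, -1, 0, -2, 3, 3, 3, 2, -2, -2, -2, -4, -1, -1, -2, -1, -2, -2, -3],
   [0, 0, 0, 0, 0, -1, -1, 2, 1, 1, 2, -1, -1, 0, -1, -2, -1, -2, -1, -2, -1, -2],
   [0, -1, 0, 0, 0, 0, -1, 1, 2, 1, 2, -1, 0, -1, -1, -1, -2, -2, -1, -1, -2, -2],
   [0, -1, 0, -1, 0, -1, -2, 3, 3, 2, 3, -2, -1, -1, -2, -2, -2, -4, -1, -2, -2, -3],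
   [-1, 0, 0, 0, 0, 0, -1, 1, 1, 2, 2, 0, -1, -1, -1, -1, -1, -1, -2, -2, -2, -2],
   [-1, 0, 0, 0, -1, -1, -2, 3, 2, 3, 3, -1, -2, -1, -2, -2, -1, -2, -2, -4, -2, -3],
   [-1, -1, -1, 0, 0, 0, -2, 2, 3, 3, 3, -1, -1, -2, -2, -1, -2, -2, -2, -2, -4, -3],
   [-1, -1, -1, -1, -1, -1, -3, 4, 4, 4, 4, -2, -2, -2, -3, -2, -2, -3, -2, -3, -3, -4]]

def Bl : List (List ℤ) :=
  [[1, 0, 0, 0, 0, 0, 0, 0, 0, 1, 0, 0, 0, 1, 0, 0, 0, 1, 0, 0, 0, 1],
   [0, 1, 0, 0, 0, 0, 0, 0, 0, 0, 0, 1, 0, 1, 0, 0, 0, 0, 0, 1, 0, 1],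
   [0, 0, 1, 0, 0, 0, 0, 0, 0, 0, 0, 0, 0, 0, 0, 1, 0, 1, 0, 1, 0, 1],
   [0, 0, 0, 1, 0, 0, 0, 0, 0, 0, 0, 0, 0, 0, 0, 0, 0, 0, 1, 1, 1, 1],
   [0, 0, 0, 0, 1, 0, 0, 0, 0, 0, 0, 0, 0, 0, 0, 0, 1, 1, 0, 0, 1, 1],
   [0, 0, 0, 0, 0, 1, 0, 0, 0, 0, 0, 0, 1, 1, 0, 0, 0, 0, 0, 0, 1, 1],
   [0, 0, 0, 0, 0, 0, 1, 1, 1, 1, 1, 1, 1, 1, 1, 1, 1, 1, 1, 1, 1, 1],
   [0, 0, 0, 0, 0, 0, 0, 1, 0, 1, 0, 1, 0, 1, 0, 1, 0, 1, 0, 1, 0, 1],
   [0, 0, 0, 0, 0, 0, 0, 0, 1, 1, 0, 0, 1, 1, 0, 0, 1, 1, 0, 0, 1, 1],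
   [0, 0, 0, 0, 0, 0, 0, 0, 0, 0, 1, 1, 1, 1, 0, 0, 0, 0, 1, 1, 1, 1],
   [0, 0, 0, 0, 0, 0, 0, 0, 0, 0, 0, 0, 0, 0, 1, 1, 1, 1, 1, 1, 1, 1],
   [0, 0, 0, 0, 0, 0, 0, 0, 0, 2, 0, 0, 0, 0, 0, 0, 0, 0, 0, 0, 0, 0],
   [0, 0, 0, 0, 0, 0, 0, 0, 0, 0, 0, 2, 0, 0, 0, 0, 0, 0, 0, 0, 0, 0],
   [0, 0, 0, 0, 0, 0, 0, 0, 0, 0, 0, 0, 2, 0, 0, 0, 0, 0, 0, 0, 0, 0],
   [0, 0, 0, 0, 0, 0, 0, 0, 0, 0, 0, 0, 0, 2, 0, 0, 0, 0, 0, 0, 0, 0],
   [0, 0, 0, 0, 0, 0, 0, 0, 0, 0, 0, 0, 0, 0, 0, 2, 0, 0, 0, 0, 0, 0],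
   [0, 0, 0, 0, 0, 0, 0, 0, 0, 0, 0, 0, 0, 0, 0, 0, 2, 0, 0, 0, 0, 0],
   [0, 0, 0, 0, 0, 0, 0, 0, 0, 0, 0, 0, 0, 0, 0, 0, 0, 2, 0, 0, 0, 0],
   [0, 0, 0, 0, 0, 0, 0, 0, 0, 0, 0, 0, 0, 0, 0, 0, 0, 0, 2, 0, 0, 0],
   [0, 0, 0, 0, 0, 0, 0, 0, 0, 0, 0, 0, 0, 0, 0, 0, 0, 0, 0, 2, 0, 0],
   [0, 0, 0, 0, 0, 0, 0, 0, 0, 0, 0, 0, 0, 0, 0, 0, 0, 0, 0, 0, 2, 0],
   [0, 0, 0, 0, 0, 0, 0, 0, 0, 0, 0, 0, 0, 0, 0, 0, 0, 0, 0, 0, 0, 2]]

def Al : List (List ℤ) :=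
  [[2, 0, 0, 0, 0, 0, 0, 0, 0, 0, 0, -1, 0, 0, -1, 0, 0, -1, 0, 0, 0, -1],
   [0, 2, 0, 0, 0, 0, 0, 0, 0, 0, 0, 0, -1, 0, -1, 0, 0, 0, 0, -1, 0, -1],
   [0, 0, 2, 0, 0, 0, 0, 0, 0, 0, 0, 0, 0, 0, 0, -1, 0, -1, 0, -1, 0, -1],
   [0, 0, 0, 2, 0, 0, 0, 0, 0, 0, 0, 0, 0, 0, 0, 0, 0, 0, -1, -1, -1, -1],
   [0, 0, 0, 0, 2, 0, 0, 0, 0, 0, 0, 0, 0, 0, 0, 0, -1, -1, 0, 0, -1, -1],
   [0, 0, 0, 0, 0, 2, 0, 0, 0, 0, 0, 0, 0, -1, -1, 0, 0, 0, 0, 0, -1, -1],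
   [0, 0, 0, 0, 0, 0, 2, -2, -2, -2, -2, 1, 1, 1, 2, 1, 1, 2, 1, 2, 2, 3],
   [0, 0, 0, 0, 0, 0, 0, 2, 0, 0, 0, -1, -1, 0, -1, -1, 0, -1, 0, -1, 0, -1],
   [0, 0, 0, 0, 0, 0, 0, 0, 2, 0, 0, -1, 0, -1, -1, 0, -1, -1, 0, 0, -1, -1],
   [0, 0, 0, 0, 0, 0, 0, 0, 0, 0, 0, 1, 0, 0, 0, 0, 0, 0, 0, 0, 0, 0],
   [0, 0, 0, 0, 0, 0, 0, 0, 0, 2, 0, 0, -1, -1, -1, 0, 0, 0, -1, -1, -1, -1],
   [0, 0, 0, 0, 0, 0, 0, 0, 0, 0, 0, 0, 1, 0, 0, 0, 0, 0, 0, 0, 0, 0],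
   [0, 0, 0, 0, 0, 0, 0, 0, 0, 0, 0, 0, 0, 1, 0, 0, 0, 0, 0, 0, 0, 0],
   [0, 0, 0, 0, 0, 0, 0, 0, 0, 0, 0, 0, 0, 0, 1, 0, 0, 0, 0, 0, 0, 0],
   [0, 0, 0, 0, 0, 0, 0, 0, 0, 0, 2, 0, 0, 0, 0, -1, -1, -1, -1, -1, -1, -1],
   [0, 0, 0, 0, 0, 0, 0, 0, 0, 0, 0, 0, 0, 0, 0, 1, 0, 0, 0, 0, 0, 0],
   [0, 0, 0, 0, 0, 0, 0, 0, 0, 0, 0, 0, 0, 0, 0, 0, 1, 0, 0, 0, 0, 0],
   [0, 0, 0, 0, 0, 0, 0, 0, 0, 0, 0, 0, 0, 0, 0, 0, 0, 1, 0, 0, 0, 0],
   [0, 0, 0, 0, 0, 0, 0, 0, 0, 0, 0, 0, 0, 0, 0, 0, 0, 0, 1, 0, 0, 0],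
   [0, 0, 0, 0, 0, 0, 0, 0, 0, 0, 0, 0, 0, 0, 0, 0, 0, 0, 0, 1, 0, 0],
   [0, 0, 0, 0, 0, 0, 0, 0, 0, 0, 0, 0, 0, 0, 0, 0, 0, 0, 0, 0, 1, 0],
   [0, 0, 0, 0, 0, 0, 0, 0, 0, 0, 0, 0, 0, 0, 0, 0, 0, 0, 0, 0, 0, 1]]

/-- entries of a list of rows -/
def ent (l : List (List ℤ)) (i j : ℕ) : ℤ := (l.getD i []).getD j 0

/-- the Gram matrix -/
def G0 : Matrix (Fin 22) (Fin 22) ℤ := Matrix.of fun i j => ent Gl i j

/-- its inverse -/
def H0 : Matrix (Fin 22) (Fin 22) ℤ := Matrix.of fun i j => ent Hl i j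

/-- coordinates of the basis vectors -/
def B (i j : Fin 22) : ℤ := ent Bl i j

/-- the orthogonal frame `u`, `w`, `e` -/
def A (i j : Fin 22) : ℤ := ent Al i j

def iu (i : Fin 3) : Fin 22 := ⟨i, by omega⟩

def iw (i : Fin 3) : Fin 22 := ⟨i + 3, by omega⟩

def ie (a : Fin 16) : Fin 22 := ⟨a + 6, by omega⟩

def u (i : Fin 3) : Fin 22 → ℤ := A (iu i)

def w (i : Fin 3) : Fin 22 → ℤ := A (iw i)

/-- the sixteen roots of the Kummer lattice -/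
def e (a : Fin 16) : Fin 22 → ℤ := A (ie a)

/-- the eight points of a hyperplane, and of the complementary hyperplane -/
def ev (i : Fin 8) : Fin 16 := ⟨2 * i, by omega⟩

def od (i : Fin 8) : Fin 16 := ⟨2 * i + 1, by omega⟩

/-- the eight roots of the Nikulin lattice -/
def e8 (i : Fin 8) : Fin 22 → ℤ := e (ev i)

/-- half the sum of the sixteen roots -/
def m16 : Fin 22 → ℤ := fun k => if k = 6 then 1 else 0

/-- half the sum of the eight roots -/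
def m8 : Fin 22 → ℤ := fun k => if k = 6 then 1 else if k = 7 then -1 else 0

/-- a primitive vector of square `2 d` which is orthogonal to the eight roots -/
def vd (d : ℤ) : Fin 22 → ℤ := Pi.single 0 1 + (d + 1) • w 0

def sw (l : Fin 22) : Fin 22 :=
  if h : l.val < 3 then ⟨l + 3, by omega⟩ else if l.val < 6 then ⟨l - 3, by omega⟩ else l

def sg (l : Fin 22) : ℤ := if l.val < 6 then 1 else -1

theorem G0_symm (i j : Fin 22) : G0 i j = G0 j i :=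
  sub_eq_zero.1 ((by decide +kernel : ∀ i j : Fin 22, G0 i j - G0 j i = 0) i j)

theorem G0_diag : ∀ i, G0 i i % 2 = 0 := by decide +kernel

theorem G0_H0 : ∀ i j, ∑ k, G0 i k * H0 k j = if i = j then 1 else 0 := by decide +kernel

theorem G0_B : ∀ i j, 2 * G0 i j = ∑ l, sg l * B i l * B j (sw l) := by decide +kernel

theorem A_B : ∀ i j, ∑ k, A i k * B k j = if i = j then 2 else 0 := by decide +kernel

theorem B_A : ∀ i j, ∑ k, B i k * A k j = if i = j then 2 else 0 := by decide +kernel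

theorem G0_A : ∀ i l, ∑ j, G0 i j * A l j = sg l * B i (sw l) := by decide +kernel

theorem two_m16 : ∀ k, 2 * m16 k = ∑ a, e a k := by decide +kernel

theorem two_m8 : ∀ k, 2 * m8 k = ∑ a, e8 a k := by decide +kernel

theorem B_low : ∀ k l : Fin 22, l.val < 6 → B k l = if k = l then 1 else 0 := by decide +kernel

theorem B_high : ∀ k l : Fin 22, 11 ≤ k.val → B k l % 2 = 0 := by decide +kernel

theorem G0_unit : IsUnit G0.det := by
  refine Matrix.isUnit_det_of_right_inverse (B := H0) ?_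
  ext i j
  rw [Matrix.mul_apply, G0_H0, Matrix.one_apply]

section ring
variable {R : Type} [CommRing R]

/-- the coordinates `(E, n)` -/
def co (x : Fin 22 → R) (l : Fin 22) : R := ∑ k, x k * (B k l : R)

theorem two_bil_aux (x y : Fin 22 → R) :
    2 * bil G0 x y = ∑ l, (sg l : R) * co x l * co y (sw l) := by
  have h : ∀ i j, (2 : R) * (G0 i j : R) = ∑ l, (sg l : R) * (B i l : R) * (B j (sw l) : R) := by
    intro i j
    have := congrArg (Int.cast : ℤ → R) (G0_B i j)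
    push_cast at this
    exact this
  calc 2 * bil G0 x y
      = ∑ i, ∑ j, ∑ l, (sg l : R) * (x i * (B i l : R)) * (y j * (B j (sw l) : R)) := by
        unfold bil
        rw [Finset.mul_sum]
        refine Finset.sum_congr rfl fun i _ => ?_
        rw [Finset.mul_sum]
        refine Finset.sum_congr rfl fun j _ => ?_
        rw [show 2 * ((G0 i j : R) * x i * y j) = (2 * (G0 i j : R)) * (x i * y j) by ring, h,
          Finset.sum_mul]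
        exact Finset.sum_congr rfl fun l _ => by ring
    _ = ∑ i, ∑ l, ∑ j, (sg l : R) * (x i * (B i l : R)) * (y j * (B j (sw l) : R)) :=
        Finset.sum_congr rfl fun i _ => Finset.sum_comm
    _ = ∑ l, ∑ i, ∑ j, (sg l : R) * (x i * (B i l : R)) * (y j * (B j (sw l) : R)) :=
        Finset.sum_comm
    _ = _ := by
        refine Finset.sum_congr rfl fun l _ => ?_
        unfold co
        rw [Finset.mul_sum Finset.univ _ (sg l : R), Finset.sum_mul_sum]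

theorem sum22 (F : Fin 22 → R) :
    ∑ l, F l = ∑ i, F (iu i) + ∑ i, F (iw i) + ∑ a, F (ie a) := by
  simp only [Fin.sum_univ_succ, Finset.univ_eq_empty, Finset.sum_empty, add_zero, add_assoc]
  rfl

theorem sw_iu (i : Fin 3) : sw (iu i) = iw i := by revert i; decide

theorem sw_iw (i : Fin 3) : sw (iw i) = iu i := by revert i; decide

theorem sw_ie (a : Fin 16) : sw (ie a) = ie a := by revert a; decide

theorem sg_iu (i : Fin 3) : sg (iu i) = 1 := by revert i; decide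

theorem sg_iw (i : Fin 3) : sg (iw i) = 1 := by revert i; decide

theorem sg_ie (a : Fin 16) : sg (ie a) = -1 := by revert a; decide

/-- the form in the coordinates -/
theorem two_bil (x y : Fin 22 → R) :
    2 * bil G0 x y = ∑ i, co x (iu i) * co y (iw i) + ∑ i, co x (iw i) * co y (iu i) -
      ∑ a, co x (ie a) * co y (ie a) := by
  rw [two_bil_aux, sum22]
  simp only [sw_iu, sw_iw, sw_ie, sg_iu, sg_iw, sg_ie, Int.cast_one, Int.cast_neg, one_mul,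
    neg_mul, Finset.sum_neg_distrib, sub_eq_add_neg]

/-- the products with the frame -/
theorem bil_A (x : Fin 22 → R) (l : Fin 22) :
    bil G0 x (fun k => (A l k : R)) = (sg l : R) * co x (sw l) := by
  unfold bil co
  rw [Finset.mul_sum]
  refine Finset.sum_congr rfl fun i _ => ?_
  have := congrArg (Int.cast : ℤ → R) (G0_A i l)
  push_cast at this
  rw [show (sg l : R) * (x i * (B i (sw l) : R)) = x i * ((sg l : R) * (B i (sw l) : R)) by ring,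
    ← this, Finset.mul_sum]
  exact Finset.sum_congr rfl fun j _ => by ring

theorem bil_u (x : Fin 22 → R) (i : Fin 3) :
    bil G0 x (fun k => (u i k : R)) = co x (iw i) := by
  have := bil_A x (iu i)
  rwa [sg_iu, sw_iu, Int.cast_one, one_mul] at this

theorem bil_w (x : Fin 22 → R) (i : Fin 3) :
    bil G0 x (fun k => (w i k : R)) = co x (iu i) := by
  have := bil_A x (iw i)
  rwa [sg_iw, sw_iw, Int.cast_one, one_mul] at this

theorem bil_e (x : Fin 22 → R) (a : Fin 16) :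
    bil G0 x (fun k => (e a k : R)) = -co x (ie a) := by
  have := bil_A x (ie a)
  rwa [sg_ie, sw_ie, Int.cast_neg, Int.cast_one, neg_one_mul] at this

theorem co_A (l m : Fin 22) : co (fun k => (A l k : R)) m = if l = m then 2 else 0 := by
  have := congrArg (Int.cast : ℤ → R) (A_B l m)
  unfold co
  split_ifs at this ⊢ <;> simpa using this

/-- a vector from its coordinates -/
theorem two_mul_eq (x : Fin 22 → R) (k : Fin 22) : 2 * x k = ∑ l, co x l * (A l k : R) := by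
  unfold co
  simp only [Finset.sum_mul]
  rw [Finset.sum_comm]
  have h : ∀ i, ∑ l, x i * (B i l : R) * (A l k : R) = if i = k then 2 * x i else 0 := by
    intro i
    have := congrArg (Int.cast : ℤ → R) (B_A i k)
    simp only [mul_assoc, ← Finset.mul_sum]
    push_cast at this
    rw [this]
    split_ifs <;> simp [mul_comm]
  simp [h]

theorem co_low (x : Fin 22 → R) (l : Fin 22) (hl : l.val < 6) : co x l = x l := by
  unfold co
  simp [B_low _ l hl]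

theorem co_add (x y : Fin 22 → R) (l : Fin 22) : co (x + y) l = co x l + co y l := by
  simp [co, add_mul, Finset.sum_add_distrib]

theorem co_smul (c : R) (x : Fin 22 → R) (l : Fin 22) : co (c • x) l = c * co x l := by
  simp [co, Finset.mul_sum, mul_assoc]

theorem co_sum {κ : Type} (s : Finset κ) (x : κ → Fin 22 → R) (l : Fin 22) :
    co (∑ i ∈ s, x i) l = ∑ i ∈ s, co (x i) l := by
  unfold co
  simp only [Finset.sum_apply, Finset.sum_mul]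
  exact Finset.sum_comm

end ring

theorem bil_u' (x : Fin 22 → ℤ) (i : Fin 3) : bil G0 x (u i) = co x (iw i) := bil_u x i

theorem bil_w' (x : Fin 22 → ℤ) (i : Fin 3) : bil G0 x (w i) = co x (iu i) := bil_w x i

theorem bil_e' (x : Fin 22 → ℤ) (a : Fin 16) : bil G0 x (e a) = -co x (ie a) := bil_e x a

theorem co_A' (l m : Fin 22) : co (A l) m = if l = m then 2 else 0 := co_A l m

theorem ie_inj {a b : Fin 16} : ie a = ie b ↔ a = b := by
  simp [ie, Fin.ext_iff]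

theorem e_e (a b : Fin 16) : bil G0 (e a) (e b) = if a = b then -2 else 0 := by
  rw [bil_e', e, co_A']
  simp only [ie_inj]
  split_ifs <;> rfl

theorem e_u (a : Fin 16) (i : Fin 3) : bil G0 (e a) (u i) = 0 := by
  rw [bil_u', e, co_A', if_neg]
  simp only [ie, iw, Fin.ext_iff]
  omega

theorem e_w (a : Fin 16) (i : Fin 3) : bil G0 (e a) (w i) = 0 := by
  rw [bil_w', e, co_A', if_neg]
  simp only [ie, iu, Fin.ext_iff]
  omega

theorem kum : Kum G0 u w where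
  uu i j := by
    rw [bil_u', u, co_A', if_neg]
    simp only [iw, iu, Fin.ext_iff]
    omega
  ww i j := by
    rw [bil_w', w, co_A', if_neg]
    simp only [iw, iu, Fin.ext_iff]
    omega
  uw i j := by
    rw [bil_w', u, co_A']
    simp [iu, Fin.ext_iff]
  dual := ⟨fun j => Pi.single (iw j) 1, fun i j => by
    rw [bil_symm _ G0_symm, bil_u', co_low _ _ (by simp only [iw]; omega)]
    simp [iw, Fin.ext_iff, Pi.single_apply]⟩

theorem G0_even (x : Fin 22 → ℤ) : Even (bil G0 x x) := by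
  have h : ∀ s : Finset (Fin 22), Even (∑ i ∈ s, ∑ j ∈ s, G0 i j * x i * x j) := by
    intro s
    induction s using Finset.induction_on with
    | empty => simp
    | insert a s ha ih =>
      rw [Finset.sum_insert ha, Finset.sum_insert ha]
      simp only [Finset.sum_insert ha, Finset.sum_add_distrib]
      have h1 : ∑ i ∈ s, G0 i a * x i * x a = ∑ j ∈ s, G0 a j * x a * x j :=
        Finset.sum_congr rfl fun i _ => by rw [G0_symm i a]; ring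
      have h2 : Even (G0 a a * x a * x a) :=
        ((Int.even_iff.2 (G0_diag a)).mul_right _).mul_right _
      rw [h1]
      obtain ⟨p, hp⟩ := h2
      obtain ⟨q, hq⟩ := ih
      exact ⟨p + q + ∑ j ∈ s, G0 a j * x a * x j, by rw [hp, hq]; ring⟩
  simpa [bil] using h Finset.univ

theorem G0_sig (v : Fin 4 → Fin 22 → ℝ) (hv : ∀ i j, i ≠ j → bil G0 (v i) (v j) = 0) :
    ∃ i, bil G0 (v i) (v i) ≤ 0 := by
  by_contra hc
  push Not at hc
  let φ : (Fin 4 → ℝ) →ₗ[ℝ] (Fin 3 → ℝ) :=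
    Matrix.mulVecLin (Matrix.of fun j i => co (v i) (iu j) + co (v i) (iw j))
  obtain ⟨c, hc0, hc1⟩ : ∃ c, φ c = 0 ∧ c ≠ 0 := by
    have := LinearMap.ker_ne_bot_of_finrank_lt (f := φ) (by simp)
    obtain ⟨c, h1, h2⟩ := Submodule.exists_mem_ne_zero_of_ne_bot this
    exact ⟨c, h1, h2⟩
  set y : Fin 22 → ℝ := ∑ i, c i • v i with hy
  have h1 : ∀ j, co y (iw j) = -co y (iu j) := by
    intro j
    have := congrFun hc0 j
    simp only [φ, Matrix.mulVecLin_apply, Matrix.mulVec, dotProduct, Matrix.of_apply,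
      Pi.zero_apply, add_mul, Finset.sum_add_distrib] at this
    simp only [hy, co_sum, co_smul]
    simp only [mul_comm (c _)]
    linarith
  have h2 : 2 * bil G0 y y ≤ 0 := by
    rw [two_bil]
    simp only [h1, mul_neg, neg_mul, Finset.sum_neg_distrib]
    have a1 : 0 ≤ ∑ i, co y (iu i) * co y (iu i) := Finset.sum_nonneg fun _ _ => mul_self_nonneg _
    have a2 : 0 ≤ ∑ i, co y (ie i) * co y (ie i) := Finset.sum_nonneg fun _ _ => mul_self_nonneg _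
    linarith
  have h3 : bil G0 y y = ∑ i, c i * c i * bil G0 (v i) (v i) := by
    simp only [hy, Fin.sum_univ_four, bil_add_left, bil_add_right, bil_smul_left, bil_smul_right]
    rw [hv 0 1 (by decide), hv 0 2 (by decide), hv 0 3 (by decide), hv 1 0 (by decide),
      hv 1 2 (by decide), hv 1 3 (by decide), hv 2 0 (by decide), hv 2 1 (by decide),
      hv 2 3 (by decide), hv 3 0 (by decide), hv 3 1 (by decide), hv 3 2 (by decide)]
    ring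
  obtain ⟨i, hi⟩ := Function.ne_iff.1 hc1
  have h4 : 0 < ∑ i, c i * c i * bil G0 (v i) (v i) :=
    Finset.sum_pos' (fun i _ => mul_nonneg (mul_self_nonneg _) (hc i).le)
      ⟨i, Finset.mem_univ _, mul_pos (mul_self_pos.2 hi) (hc i)⟩
  linarith

theorem lat : Lat G0 := ⟨G0_symm, G0_even, G0_unit, G0_sig, by simp⟩

/-- the frame `u`, `w`, `e` spans the rational lattice -/
theorem eq_zero_of_orth {R : Type} [CommRing R] [NoZeroDivisors R] [CharZero R] (x : Fin 22 → R)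
    (hu : ∀ i, bil G0 x (fun k => (u i k : R)) = 0) (hw : ∀ i, bil G0 x (fun k => (w i k : R)) = 0)
    (he : ∀ a, bil G0 x (fun k => (e a k : R)) = 0) : x = 0 := by
  funext k
  have h := two_mul_eq x k
  rw [sum22] at h
  simp only [bil_u, bil_w, bil_e, neg_eq_zero] at hu hw he
  simpa [hu, hw, he] using h

/-- affine functions on the sixteen points -/
def aff (c₀ c₁ c₂ c₃ c₄ : ZMod 2) (a : Fin 16) : ZMod 2 :=
  c₀ * B 6 (ie a) + c₁ * B 7 (ie a) + c₂ * B 8 (ie a) + c₃ * B 9 (ie a) + c₄ * B 10 (ie a)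

theorem aff_card : ∀ c₀ c₁ c₂ c₃ c₄ : ZMod 2, (∀ a, aff c₀ c₁ c₂ c₃ c₄ a = 0) ∨
    8 ≤ (Finset.univ.filter fun a => aff c₀ c₁ c₂ c₃ c₄ a ≠ 0).card := by decide +kernel

theorem co_par (x : Fin 22 → ℤ) (hx : ∀ k : Fin 22, k.val < 6 → x k = 0) (a : Fin 16) :
    ((co x (ie a) : ℤ) : ZMod 2) = aff (x 6) (x 7) (x 8) (x 9) (x 10) a := by
  have h : ∀ k : Fin 22, k ∉ ({6, 7, 8, 9, 10} : Finset (Fin 22)) →
      (x k : ZMod 2) * (B k (ie a) : ZMod 2) = 0 := by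
    intro k hk
    by_cases h6 : k.val < 6
    · simp [hx k h6]
    · have h11 : 11 ≤ k.val := by
        revert k
        decide
      have : (B k (ie a) : ZMod 2) = 0 :=
        (ZMod.intCast_zmod_eq_zero_iff_dvd _ 2).2 (Int.dvd_of_emod_eq_zero (B_high k _ h11))
      rw [this, mul_zero]
  unfold co aff
  push_cast
  rw [← Finset.sum_subset (Finset.subset_univ ({6, 7, 8, 9, 10} : Finset (Fin 22)))
    fun k _ hk => h k hk]
  rw [Finset.sum_insert (by decide), Finset.sum_insert (by decide), Finset.sum_insert (by decide),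
    Finset.sum_insert (by decide), Finset.sum_singleton]
  ring

/-- the roots of the Kummer lattice -/
theorem root_K (x : Fin 22 → ℤ) (hu : ∀ i, bil G0 x (u i) = 0) (hw : ∀ i, bil G0 x (w i) = 0)
    (hx : bil G0 x x = -2) : ∃ a, x = e a ∨ x = -e a := by
  simp only [bil_u', bil_w'] at hu hw
  have h4 : ∑ a, co x (ie a) * co x (ie a) = 4 := by
    have := two_bil x x
    simp only [hu, hw, mul_zero, Finset.sum_const_zero] at this
    linarith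
  have hlow : ∀ k : Fin 22, k.val < 6 → x k = 0 := by
    intro k hk
    rw [← co_low x k hk]
    by_cases h3 : k.val < 3
    · exact hw ⟨k, h3⟩
    · have := hu ⟨k - 3, by omega⟩
      rwa [show iw ⟨k - 3, by omega⟩ = k by simp only [iw, Fin.ext_iff]; omega] at this
  have hev : ∀ a, (2 : ℤ) ∣ co x (ie a) := by
    rcases aff_card (x 6) (x 7) (x 8) (x 9) (x 10) with h | h
    · intro a
      exact (ZMod.intCast_zmod_eq_zero_iff_dvd _ 2).1 (by rw [co_par x hlow, h])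
    · exfalso
      have h1 : ((Finset.univ.filter fun a => aff (x 6) (x 7) (x 8) (x 9) (x 10) a ≠ 0).card : ℤ)
          ≤ ∑ a, co x (ie a) * co x (ie a) := by
        rw [Finset.card_filter]
        push_cast
        refine Finset.sum_le_sum fun a _ => ?_
        split_ifs with ha
        · have : co x (ie a) ≠ 0 := fun h0 => ha (by rw [← co_par x hlow, h0, Int.cast_zero])
          exact mul_self_pos.2 this
        · exact mul_self_nonneg _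
      omega
  choose m hm using hev
  have h1 : ∑ a, m a * m a = 1 := by
    have : ∑ a, co x (ie a) * co x (ie a) = 4 * ∑ a, m a * m a := by
      rw [Finset.mul_sum]
      exact Finset.sum_congr rfl fun a _ => by rw [hm]; ring
    omega
  obtain ⟨a, ha⟩ : ∃ a, m a ≠ 0 := by
    by_contra hc
    push Not at hc
    simp [hc] at h1
  rw [← Finset.add_sum_erase _ _ (Finset.mem_univ a)] at h1
  have p1 : 0 < m a * m a := mul_self_pos.2 ha
  have p2 : 0 ≤ ∑ b ∈ Finset.univ.erase a, m b * m b :=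
    Finset.sum_nonneg fun _ _ => mul_self_nonneg _
  have p3 : ∀ b, b ≠ a → m b = 0 := fun b hb => mul_self_eq_zero.1
    ((Finset.sum_eq_zero_iff_of_nonneg fun _ _ => mul_self_nonneg _).1 (by omega) b
      (Finset.mem_erase.2 ⟨hb, Finset.mem_univ _⟩))
  have hk : ∀ k, x k = m a * e a k := by
    intro k
    have h := two_mul_eq x k
    rw [sum22, Finset.sum_eq_single a (fun b _ hb => by rw [hm, p3 b hb]; simp) (by simp)] at h
    simp only [hu, hw, zero_mul, Finset.sum_const_zero, zero_add, hm, Int.cast_id] at h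
    have : 2 * x k = 2 * (m a * e a k) := by rw [h, e]; ring
    omega
  refine ⟨a, ?_⟩
  rcases mul_self_eq_one_iff.1 (show m a * m a = 1 by omega) with h | h
  · exact Or.inl (funext fun k => by rw [hk, h, one_mul])
  · exact Or.inr (funext fun k => by rw [hk, h]; simp)

theorem ev_or_od (a : Fin 16) : (∃ i, a = ev i) ∨ ∃ i, a = od i := by revert a; decide

theorem ev_inj {i j : Fin 8} : ev i = ev j ↔ i = j := by
  simp [ev, Fin.ext_iff]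

/-- the roots of the Nikulin lattice -/
theorem root_N (x : Fin 22 → ℤ) (hu : ∀ i, bil G0 x (u i) = 0) (hw : ∀ i, bil G0 x (w i) = 0)
    (ho : ∀ i, bil G0 x (e (od i)) = 0) (hx : bil G0 x x = -2) : ∃ i, x = e8 i ∨ x = -e8 i := by
  obtain ⟨a, ha⟩ := root_K x hu hw hx
  rcases ev_or_od a with ⟨i, rfl⟩ | ⟨i, rfl⟩
  · exact ⟨i, ha⟩
  · exfalso
    have := ho i
    rcases ha with rfl | rfl
    · simp [e_e] at this
    · simp [bil_neg_left, e_e] at this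

theorem vd_prim (d : ℤ) : Prim (vd d) := by
  intro c y h
  have := congrFun h 0
  have h0 : w 0 0 = 0 := by decide +kernel
  simp only [vd, Pi.add_apply, Pi.single_eq_same, Pi.smul_apply, h0, smul_eq_mul, mul_zero,
    add_zero] at this
  exact IsUnit.of_mul_eq_one _ this.symm

theorem vd_e8 (d : ℤ) (i : Fin 8) : bil G0 (vd d) (e8 i) = 0 := by
  have h : ∀ i, bil G0 (Pi.single 0 1) (e8 i) = 0 := by decide +kernel
  rw [vd, bil_add_left, bil_smul_left, h, bil_symm _ G0_symm, e8, e_w]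
  simp

theorem vd_sq (d : ℤ) : bil G0 (vd d) (vd d) = 2 * d := by
  have h1 : bil G0 (Pi.single 0 1 : Fin 22 → ℤ) (Pi.single 0 1) = -2 := by decide +kernel
  have h2 : bil G0 (Pi.single 0 1 : Fin 22 → ℤ) (w 0) = 1 := by decide +kernel
  have h3 : bil G0 (w 0) (Pi.single 0 1 : Fin 22 → ℤ) = 1 := by decide +kernel
  simp only [vd, bil_add_left, bil_add_right, bil_smul_left, bil_smul_right, h1, h2, h3,
    kum.ww]
  ring

/-- The integral vectors orthogonal to `s` form the saturation of `n` orthogonal roots with even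
sum, and there are no other roots. -/
def NSE {N : ℕ} (G : Matrix (Fin N) (Fin N) ℤ) (s : Fin N → ℂ) (n : ℕ) : Prop :=
  ∃ r : Fin n → Fin N → ℤ, (∀ i, bil G s (ic (r i)) = 0) ∧
    (∀ i j, bil G (r i) (r j) = if i = j then -2 else 0) ∧ (∃ m : Fin N → ℤ, 2 • m = ∑ i, r i) ∧
    (∀ x, bil G s (ic x) = 0 → bil G x x = -2 → ∃ i, x = r i ∨ x = -r i) ∧
    ∀ x, bil G s (ic x) = 0 → (∀ i, bil G x (r i) = 0) → x = 0

/-- generic periods in the span of `u`, `w` -/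
theorem nse16 (s : Fin 22 → ℂ) (hs : InT u w s)
    (hg : ∀ x, bil G0 s (ic x) = 0 → ∀ i, bil G0 x (u i) = 0 ∧ bil G0 x (w i) = 0) :
    NSE G0 s 16 := by
  refine ⟨e, fun a => ?_, e_e, ⟨m16, funext fun k => ?_⟩, fun x hx h2 => ?_, fun x hx h => ?_⟩
  · obtain ⟨p, q, rfl⟩ := hs
    have hu : ∀ i, bil G0 (ic (u i)) (ic (e a)) = 0 := fun i => by
      unfold ic
      rw [bil_intCast_complex, bil_symm _ G0_symm, e_u, Int.cast_zero]
    have hw : ∀ i, bil G0 (ic (w i)) (ic (e a)) = 0 := fun i => by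
      unfold ic
      rw [bil_intCast_complex, bil_symm _ G0_symm, e_w, Int.cast_zero]
    simp [Fin.sum_univ_three, bil_add_left, bil_smul_left, hu, hw]
  · simpa [Finset.sum_apply] using two_m16 k
  · exact root_K x (fun i => (hg x hx i).1) (fun i => (hg x hx i).2) h2
  · exact eq_zero_of_orth x (fun i => (hg x hx i).1) (fun i => (hg x hx i).2) h

/-- generic periods orthogonal to the eight roots -/
theorem nse8 (s : Fin 22 → ℂ) (hs : ∀ i, bil G0 s (ic (e8 i)) = 0)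
    (hg : ∀ x, bil G0 s (ic x) = 0 →
      (∀ i, bil G0 x (u i) = 0 ∧ bil G0 x (w i) = 0) ∧ ∀ i, bil G0 x (e (od i)) = 0) :
    NSE G0 s 8 := by
  refine ⟨e8, hs, fun i j => ?_, ⟨m8, funext fun k => ?_⟩, fun x hx h2 => ?_, fun x hx h => ?_⟩
  · simp only [e8, e_e, ev_inj]
  · simpa [Finset.sum_apply] using two_m8 k
  · exact root_N x (fun i => ((hg x hx).1 i).1) (fun i => ((hg x hx).1 i).2) (hg x hx).2 h2
  · refine eq_zero_of_orth x (fun i => ((hg x hx).1 i).1) (fun i => ((hg x hx).1 i).2) fun a => ?_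
    rcases ev_or_od a with ⟨i, rfl⟩ | ⟨i, rfl⟩
    · exact h i
    · exact (hg x hx).2 i

end Vale.Agent.P290Z.N
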