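import Vale.Agent.P290Z.Spec3L
import Vale.Agent.P290Z.Lat.Basic

/-! P290Z, part III: the lattice of a Kummer surface as a lattice of pairs `(A, n)`, its
identification with the lattice `N.G0`, and the bridge from `GenK`, `GenN` to `N.NSE`. -/

open Set Matrix

namespace Vale.Agent.P290Z.Top

open Vale.Agent.P290.H726
open Vale.Agent.P290Z.Lat Vale.Agent.P290Z.N

/-- the points of order two -/
abbrev F4 : Type := Fin 4 → ZMod 2

/-- the polarised Pfaffian -/
def pf {R : Type} [CommRing R] (A B : Fin 4 → Fin 4 → R) : R :=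
  A 0 1 * B 2 3 + A 2 3 * B 0 1 - A 0 2 * B 1 3 - A 1 3 * B 0 2 + A 0 3 * B 1 2 + A 1 2 * B 0 3

/-- The lattice of a Kummer surface: `(A, n)` stands for `(α A - ∑ n a • E a) / 2`; `A` is skew and
`n` is a quadratic function modulo two with the polar form `A`. -/
def LKm : AddSubgroup ((Fin 4 → Fin 4 → ℤ) × (F4 → ℤ)) where
  carrier := {x | (∀ i j, x.1 i j = -x.1 j i) ∧ ∀ a b : F4,
    ((x.2 (a + b) + x.2 a + x.2 b + x.2 0 : ℤ) : ZMod 2) =
      ∑ i, ∑ j, a i * (x.1 i j : ZMod 2) * b j}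
  zero_mem' := ⟨fun i j => by simp, fun a b => by simp⟩
  add_mem' := by
    rintro x y ⟨hx, hx'⟩ ⟨hy, hy'⟩
    refine ⟨fun i j => ?_, fun a b => ?_⟩
    · simp only [Prod.fst_add, Pi.add_apply]
      rw [hx i j, hy i j]; ring
    · have h1 := hx' a b
      have h2 := hy' a b
      simp only [Prod.fst_add, Prod.snd_add, Pi.add_apply, Int.cast_add, mul_add, add_mul,
        Finset.sum_add_distrib] at h1 h2 ⊢
      linear_combination h1 + h2
  neg_mem' := by
    rintro x ⟨hx, hx'⟩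
    refine ⟨fun i j => ?_, fun a b => ?_⟩
    · simp only [Prod.fst_neg, Pi.neg_apply]
      rw [hx i j]
    · have h1 := hx' a b
      simp only [Prod.fst_neg, Prod.snd_neg, Pi.neg_apply, Int.cast_add, Int.cast_neg, mul_neg,
        neg_mul, Finset.sum_neg_distrib] at h1 ⊢
      linear_combination -h1

/-- twice the intersection form -/
def form2 (x y : LKm) : ℤ := pf x.1.1 y.1.1 - ∑ a, x.1.2 a * y.1.2 a

/-- the class of the curve over the point `a` -/
def eK (a : F4) : LKm :=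
  ⟨(0, Pi.single a (-2)), fun i j => by simp, fun b c => by
    have h : ∀ x : F4, (((Pi.single a (-2) : F4 → ℤ) x : ℤ) : ZMod 2) = 0 := by
      intro x
      by_cases hx : x = a
      · subst hx; simp; rfl
      · simp [hx]
    simp only [Int.cast_add, h]
    simp⟩

/-- the numbering of the sixteen points -/
def ix : F4 ≃ Fin 16 where
  toFun a := ⟨(a 0).val + 2 * (a 1).val + 4 * (a 2).val + 8 * (a 3).val, by
    have := ZMod.val_lt (a 0)
    have := ZMod.val_lt (a 1)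
    have := ZMod.val_lt (a 2)
    have := ZMod.val_lt (a 3)
    omega⟩
  invFun k i := ((k.val / 2 ^ i.val : ℕ) : ZMod 2)
  left_inv := by decide +kernel
  right_inv := by decide +kernel

theorem ix_ev : ∀ i : Fin 8, ix.symm (ev i) 0 = 0 := by decide +kernel

theorem ix_od : ∀ i : Fin 8, ix.symm (od i) 0 = 1 := by decide +kernel

/-- the skew matrix with the first six coordinates as entries -/
def mkA (x : Fin 22 → ℤ) : Fin 4 → Fin 4 → ℤ :=
  ![![0, x 0, x 1, x 2], ![-x 0, 0, x 5, -x 4], ![-x 1, -x 5, 0, x 3], ![-x 2, x 4, -x 3, 0]]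

theorem bL_mem : ∀ k : Fin 22, (∀ i j, mkA (Pi.single k 1) i j = -mkA (Pi.single k 1) j i) ∧
    ∀ a b : F4, ((-B k (ie (ix (a + b))) + -B k (ie (ix a)) + -B k (ie (ix b)) +
      -B k (ie (ix 0)) : ℤ) : ZMod 2) =
      ∑ i, ∑ j, a i * (mkA (Pi.single k 1) i j : ZMod 2) * b j := by decide +kernel

/-- the basis -/
def bL (k : Fin 22) : LKm := ⟨(mkA (Pi.single k 1), fun a => -B k (ie (ix a))), bL_mem k⟩

/-- from the coordinates to the pairs -/
def psi0 : (Fin 22 → ℤ) →+ LKm := (Fintype.linearCombination ℤ bL).toAddMonoidHom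

theorem psi0_val (x : Fin 22 → ℤ) : (psi0 x).1 = ∑ k, x k • (bL k).1 := by
  simp [psi0, Fintype.linearCombination_apply]

theorem psi0_fst (x : Fin 22 → ℤ) : (psi0 x).1.1 = mkA x := by
  funext i j
  rw [psi0_val, Prod.fst_sum, Finset.sum_apply, Finset.sum_apply]
  fin_cases i <;> fin_cases j <;> simp [bL, mkA, Pi.single_apply]

theorem psi0_snd (x : Fin 22 → ℤ) (a : F4) : (psi0 x).1.2 a = -co x (ie (ix a)) := by
  rw [psi0_val, Prod.snd_sum, Finset.sum_apply]
  simp [bL, co]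

theorem psi0_form (x y : Fin 22 → ℤ) : 2 * bil G0 x y = form2 (psi0 x) (psi0 y) := by
  have hu : ∀ (z : Fin 22 → ℤ) i, co z (iu i) = z (iu i) := fun z i =>
    co_low z _ (by simp only [iu]; omega)
  have hw : ∀ (z : Fin 22 → ℤ) i, co z (iw i) = z (iw i) := fun z i =>
    co_low z _ (by simp only [iw]; omega)
  rw [two_bil, form2, psi0_fst, psi0_fst]
  simp only [psi0_snd, neg_mul_neg, hu, hw]
  rw [Equiv.sum_comp ix fun a => co x (ie a) * co y (ie a)]
  congr 1
  simp only [Fin.sum_univ_three, pf, mkA]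
  change x 0 * y 3 + x 1 * y 4 + x 2 * y 5 + (x 3 * y 0 + x 4 * y 1 + x 5 * y 2) =
    x 0 * y 3 + x 3 * y 0 - x 1 * -y 4 - -x 4 * y 1 + x 2 * y 5 + x 5 * y 2
  ring

theorem psi0_e (a : F4) : psi0 (e (ix a)) = eK a := by
  have h : ∀ (a : Fin 16) (i j : Fin 4), mkA (e a) i j = 0 := by decide +kernel
  refine Subtype.ext (Prod.ext ?_ (funext fun b => ?_))
  · rw [psi0_fst]
    funext i j
    exact h _ i j
  · rw [psi0_snd, e, co_A']
    simp only [ie_inj, EmbeddingLike.apply_eq_iff_eq, eK, Pi.single_apply, eq_comm (a := a)]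
    split_ifs <;> rfl

theorem psi0_inj : Function.Injective psi0 := by
  refine (injective_iff_map_eq_zero _).2 fun x hx => ?_
  have h : ∀ y, bil G0 x y = 0 := fun y => by
    have := psi0_form x y
    rw [hx] at this
    simpa [form2, pf] using this
  exact eq_zero_of_orth x (fun _ => h _) (fun _ => h _) fun _ => h _

theorem psi0_surj : Function.Surjective psi0 := by
  intro y
  let p : Fin 22 → ℤ := ![y.1.1 0 1, y.1.1 0 2, y.1.1 0 3, y.1.1 2 3, -y.1.1 1 3, y.1.1 1 2,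
    -y.1.2 0, y.1.2 0 - y.1.2 (Pi.single 0 1), y.1.2 0 - y.1.2 (Pi.single 1 1),
    y.1.2 0 - y.1.2 (Pi.single 2 1), y.1.2 0 - y.1.2 (Pi.single 3 1), 0, 0, 0, 0, 0, 0, 0, 0, 0,
    0, 0]
  have hB0 : ∀ k, B k (ie (ix 0)) = if k = 6 then 1 else 0 := by decide +kernel
  have hB1 : ∀ (i : Fin 4) k, B k (ie (ix (Pi.single i 1))) = (if k = 6 then 1 else 0) +
      if k = ⟨7 + i.val, by omega⟩ then 1 else 0 := by decide +kernel
  obtain ⟨z, hz⟩ : ∃ z : LKm, z = y - psi0 p := ⟨_, rfl⟩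
  have h1 : z.1.1 = 0 := by
    have hs := y.2.1
    have hd : ∀ i, y.1.1 i i = 0 := fun i => by have := hs i i; omega
    funext i j
    rw [hz, AddSubgroup.coe_sub, Prod.fst_sub, psi0_fst]
    fin_cases i <;> fin_cases j <;>
      simp [mkA, p, hd, hs 1 0, hs 2 0, hs 3 0, hs 2 1, hs 3 1, hs 3 2]
  have h2 : z.1.2 0 = 0 := by
    rw [hz, AddSubgroup.coe_sub, Prod.snd_sub, Pi.sub_apply, psi0_snd]
    simp [co, hB0, p]
  have h3 : ∀ i, z.1.2 (Pi.single i 1) = 0 := by
    intro i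
    rw [hz, AddSubgroup.coe_sub, Prod.snd_sub, Pi.sub_apply, psi0_snd]
    simp only [co, hB1, Int.cast_id, mul_add, Finset.sum_add_distrib, mul_ite, mul_one, mul_zero,
      Finset.sum_ite_eq', Finset.mem_univ, if_true]
    fin_cases i <;> simp [p]
  have h4 : ∀ a b : F4, (z.1.2 a : ZMod 2) = 0 → (z.1.2 b : ZMod 2) = 0 →
      (z.1.2 (a + b) : ZMod 2) = 0 := by
    intro a b ha hb
    have := z.2.2 a b
    simpa [h1, h2, ha, hb] using this
  have h5 : ∀ a : F4, (z.1.2 a : ZMod 2) = 0 := by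
    intro a
    induction a using Pi.single_induction with
    | zero => simp [h2]
    | add f g hf hg => exact h4 f g hf hg
    | single i c =>
      have hc : ∀ c : ZMod 2, c = 0 ∨ c = 1 := by decide
      rcases hc c with rfl | rfl
      · simp [h2]
      · simp [h3]
  choose m hm using fun a => (ZMod.intCast_zmod_eq_zero_iff_dvd _ 2).1 (h5 a)
  have h6 : z = ∑ a, (-m a) • eK a := by
    refine Subtype.ext (Prod.ext ?_ (funext fun b => ?_))
    · rw [h1, AddSubgroup.val_finsetSum, Prod.fst_sum]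
      simp [eK]
    · rw [hm, AddSubgroup.val_finsetSum, Prod.snd_sum, Finset.sum_apply]
      simp [eK, Pi.single_apply, mul_comm]
  refine ⟨p + ∑ a, (-m a) • e (ix a), ?_⟩
  rw [map_add, map_sum]
  simp only [map_zsmul, psi0_e]
  rw [← h6, hz]
  abel

/-- the identification of the two models -/
noncomputable def phi0 : LKm ≃+ (Fin 22 → ℤ) :=
  (AddEquiv.ofBijective psi0 ⟨psi0_inj, psi0_surj⟩).symm

theorem psi0_phi0 (x : LKm) : psi0 (phi0 x) = x :=
  (AddEquiv.ofBijective psi0 ⟨psi0_inj, psi0_surj⟩).apply_symm_apply x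

theorem phi0_form (x y : LKm) : 2 * bil G0 (phi0 x) (phi0 y) = form2 x y := by
  rw [psi0_form, psi0_phi0, psi0_phi0]

theorem phi0_eK (a : F4) : phi0 (eK a) = e (ix a) := psi0_inj (by rw [psi0_phi0, psi0_e])

section conf

variable {ι : Type} [Fintype ι] [DecidableEq ι] {G : Matrix ι ι ℤ}

/-- the isometry from the lattice of pairs -/
noncomputable def KConf.φ (κ : KConf G) : LKm ≃+ (ι → ℤ) :=
  phi0.trans (AddEquiv.ofBijective (AddMonoidHom.mk' (act κ.g) (act_add κ.g))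
    ⟨κ.isom.act_inj, κ.isom.act_surj⟩)

theorem KConf.φ_apply (κ : KConf G) (x : LKm) : κ.φ x = act κ.g (phi0 x) := rfl

theorem KConf.form (κ : KConf G) (x y : LKm) : 2 * bil G (κ.φ x) (κ.φ y) = form2 x y := by
  rw [κ.φ_apply, κ.φ_apply, κ.isom.bil, phi0_form]

/-- the sixteen classes, indexed by the points -/
noncomputable def KConf.EF (κ : KConf G) (a : F4) : ι → ℤ := κ.φ (eK a)

theorem KConf.EF_eq (κ : KConf G) (a : F4) : κ.EF a = κ.E (ix a) := by
  rw [KConf.EF, κ.φ_apply, phi0_eK, KConf.E]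

theorem KConf.E_eq (κ : KConf G) (a : Fin 16) : κ.E a = κ.EF (ix.symm a) := by
  rw [κ.EF_eq, Equiv.apply_symm_apply]

theorem exists_kconf (φ : LKm ≃+ (ι → ℤ)) (h : ∀ x y, 2 * bil G (φ x) (φ y) = form2 x y) :
    ∃ κ : KConf G, ∀ x, κ.φ x = φ x := by
  obtain ⟨g, hg, h2⟩ := isom_of_lin (G := G) (G' := G0) (phi0.symm.trans φ).toIntLinearEquiv
    fun x y => by
      have h1 := h (phi0.symm x) (phi0.symm y)
      rw [← phi0_form, phi0.apply_symm_apply, phi0.apply_symm_apply] at h1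
      exact mul_left_cancel₀ two_ne_zero h1
  refine ⟨⟨g, hg⟩, fun x => ?_⟩
  rw [KConf.φ_apply, h2]
  simp

theorem genK_iff (κ : KConf G) (p : ι → ℂ) : GenK κ p ↔ Gen G κ.EF p := by
  have h : ∀ z, (∀ a, bil G z (κ.E a) = 0) ↔ ∀ a, bil G z (κ.EF a) = 0 := fun z =>
    ⟨fun h a => by rw [κ.EF_eq]; exact h _, fun h a => by rw [κ.E_eq]; exact h _⟩
  simp only [GenK, Gen, h]

theorem KConf.symm (κ : KConf G) (x y : ι → ℤ) : bil G x y = bil G y x := by
  obtain ⟨x, rfl⟩ := κ.isom.act_surj x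
  obtain ⟨y, rfl⟩ := κ.isom.act_surj y
  rw [κ.isom.bil, κ.isom.bil, bil_symm _ G0_symm]

end conf

section nse

variable {n : ℕ} {G : Matrix (Fin n) (Fin n) ℤ}

theorem nse_map {g : Matrix (Fin n) (Fin 22) ℤ} (hg : Isom G0 G g) {s : Fin 22 → ℂ} {k : ℕ}
    (h : NSE G0 s k) : NSE G (act g s) k := by
  obtain ⟨r, h1, h2, ⟨m, h3⟩, h4, h5⟩ := h
  have hc : ∀ x : Fin 22 → ℤ, bil G (act g s) (Orb.ic (act g x)) = bil G0 s (Orb.ic x) := fun x => by
    rw [← hg.bil]
    exact congrArg _ (act_cs g x).symm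
  refine ⟨fun i => act g (r i), fun i => by rw [hc, h1], fun i j => by rw [hg.bil, h2],
    ⟨act g m, ?_⟩, fun x hx h => ?_, fun x hx h => ?_⟩
  · rw [← act_sum, ← h3, two_smul, two_smul, act_add]
  · obtain ⟨x, rfl⟩ := hg.act_surj x
    rw [hc] at hx
    rw [hg.bil] at h
    obtain ⟨i, hi | hi⟩ := h4 x hx h
    · exact ⟨i, Or.inl (by rw [hi])⟩
    · exact ⟨i, Or.inr (by rw [hi, act_neg])⟩
  · obtain ⟨x, rfl⟩ := hg.act_surj x
    rw [hc] at hx
    rw [h5 x hx fun i => by rw [← hg.bil]; exact h i, act_zero]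

theorem gen_pull {g : Matrix (Fin n) (Fin 22) ℤ} (hg : Isom G0 G g) {μ : Type}
    {m : μ → Fin 22 → ℤ} {s : Fin 22 → ℂ} (h : Gen G (fun a => act g (m a)) (act g s)) :
    Gen G0 m s := by
  obtain ⟨k, hk, -, -, -, h2⟩ := hg.symm
  have := hk.gen h
  simpa only [h2] using this

theorem nse_of_genK (κ : KConf G) {s : Fin n → ℂ} (h : GenK κ s) : NSE G s 16 := by
  obtain ⟨s, rfl⟩ := κ.isom.act_surj s
  have h0 : Gen G0 e s := gen_pull κ.isom h
  have h1 : ∀ x, bil G0 s (Orb.ic x) = 0 → ∀ i, bil G0 x (u i) = 0 ∧ bil G0 x (w i) = 0 :=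
    fun x hx i =>
      ⟨by rw [bil_symm _ G0_symm]
          exact (h0 x).1 hx _ fun a => by rw [bil_symm _ G0_symm, e_u],
       by rw [bil_symm _ G0_symm]
          exact (h0 x).1 hx _ fun a => by rw [bil_symm _ G0_symm, e_w]⟩
  refine nse_map κ.isom ⟨e, fun a => (h0 _).2 fun z hz => hz a, e_e, ⟨m16, funext fun k => ?_⟩,
    fun x hx h2 => ?_, fun x hx h => ?_⟩
  · simpa [Finset.sum_apply] using two_m16 k
  · exact root_K x (fun i => (h1 x hx i).1) (fun i => (h1 x hx i).2) h2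
  · exact eq_zero_of_orth x (fun i => (h1 x hx i).1) (fun i => (h1 x hx i).2) h

theorem nse_of_genN (κ : KConf G) {s : Fin n → ℂ} (h : GenN κ s) : NSE G s 8 := by
  obtain ⟨s, rfl⟩ := κ.isom.act_surj s
  have h0 : Gen G0 e8 s := gen_pull κ.isom h
  refine nse_map κ.isom (nse8 s (fun a => (h0 _).2 fun z hz => hz a) fun x hx =>
    ⟨fun i => ⟨?_, ?_⟩, fun i => ?_⟩) <;> rw [bil_symm _ G0_symm] <;>
    refine (h0 x).1 hx _ fun a => ?_
  · rw [bil_symm _ G0_symm, e8, e_u]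
  · rw [bil_symm _ G0_symm, e8, e_w]
  · rw [e8, e_e, if_neg]
    simp only [od, ev, Fin.ext_iff]
    omega

end nse

end Vale.Agent.P290Z.Top
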